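import Vale.Agent.P235.K5.H558.Centre

/-!
# P235, line GX, row [X1] CLUSTER (helper624)

The almost medians of a triple of vertices, in a graph without a `K_{3,n}` minor whose edges
generate the metric, lie near fewer than `n` points.
-/

set_option autoImplicit false
set_option linter.all false

namespace Vale.Agent.P235.K5.GX.H624

open SimpleGraph Vale.Agent.P235 Vale.Agent.P235.H134 Vale.Agent.P235.K5
open Vale.Agent.P235.K5.H558 (star_conn)

variable {V : Type}

/-- `K_{3,n}` from points whose intervals to the roots do not cross -/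
theorem k3n_of [Finite V] {G : SimpleGraph V} {d : V → V → ℝ} (hd : IsMet d) (hG : Gen G d)
    (R : Fin 3 → V) {n : ℕ} (hn : 0 < n) (x : Fin n → V)
    (hcr : ∀ i j a b v, i ≠ j → a ≠ b → d (x i) v + d v (R a) = d (x i) (R a) →
      d (x j) v + d v (R b) = d (x j) (R b) → False)
    (hr : ∀ i a b, a ≠ b → d (x i) (R a) + d (R a) (R b) ≠ d (x i) (R b)) :
    IsMinor (completeBipartiteGraph (Fin 3) (Fin n)) G := by
  let I : V → V → Set V := fun p r => {v | d p v + d v r = d p r}
  have mI : ∀ {p r v : V}, v ∈ I p r ↔ d p v + d v r = d p r := Iff.rfl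
  -- rules
  have rule1 : ∀ {p r v w : V}, v ∈ I p r → w ∈ I v r → w ∈ I p r ∧ v ∈ I p w := by
    intro p r v w h1 h2
    have h3 := hd.tri p v w
    have h4 := hd.tri p w r
    rw [mI] at h1 h2 ⊢
    rw [mI]
    constructor <;> linarith
  have rule2 : ∀ {p r v w : V}, w ∈ I p r → v ∈ I p w → v ∈ I p r := by
    intro p r v w h1 h2
    have h3 := hd.tri v w r
    have h4 := hd.tri p v r
    rw [mI] at h1 h2 ⊢
    linarith
  have self1 : ∀ p r : V, p ∈ I p r := by
    intro p r; rw [mI, hd.self, zero_add]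
  have self2 : ∀ p r : V, r ∈ I p r := by
    intro p r; rw [mI, hd.self, add_zero]
  have other : ∀ a : Fin 3, ∃ b, b ≠ a := fun a => ⟨a + 1, by revert a; decide⟩
  have other2 : ∀ a b c : Fin 3, a ≠ b → a ≠ c ∨ b ≠ c := by decide
  let Q : Fin 3 → Set V := fun a => {v | ∃ i, v ∈ I (x i) (R a) ∧ ∀ b, b ≠ a → v ∉ I (x i) (R b)}
  let X : Fin n → Set V := fun i => {v | ∃ a b, a ≠ b ∧ v ∈ I (x i) (R a) ∧ v ∈ I (x i) (R b)}
  have hQ0 : ∀ a, R a ∈ Q a := by
    intro a
    refine ⟨⟨0, hn⟩, self2 _ _, fun b hb hv => ?_⟩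
    exact hr _ a b hb.symm hv
  have hQ : ∀ a, (G.induce (Q a)).Connected := by
    intro a
    refine star_conn (fun v => d v (R a)) (r := R a) (hQ0 a) ?_
    rintro v ⟨i, h1, h2⟩ hv
    obtain ⟨w, ha, hw⟩ := H558.step hd hG (x := R a) hv
    have hw' : w ∈ I v (R a) := hw
    obtain ⟨h3, h4⟩ := rule1 h1 hw'
    refine ⟨w, ⟨i, h3, fun b hb hwb => h2 b hb (rule2 hwb h4)⟩, ha, ?_⟩
    have := hd.pos v w ha.ne
    show d w (R a) < d v (R a)
    linarith
  have hX0 : ∀ i, x i ∈ X i := fun i => ⟨0, 1, by decide, self1 _ _, self1 _ _⟩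
  have hX : ∀ i, (G.induce (X i)).Connected := by
    intro i
    refine star_conn (fun v => d v (x i)) (r := x i) (hX0 i) ?_
    rintro v ⟨a, b, hab, h1, h2⟩ hv
    obtain ⟨w, ha, hw⟩ := H558.step hd hG (x := x i) hv
    have hw' : w ∈ I (x i) v := by
      rw [mI, hd.symm (x i) w, hd.symm w v, hd.symm (x i) v]
      linarith
    refine ⟨w, ⟨a, b, hab, rule2 h1 hw', rule2 h2 hw'⟩, ha, ?_⟩
    have := hd.pos v w ha.ne
    show d w (x i) < d v (x i)
    linarith
  have dQQ : ∀ a b, a ≠ b → Disjoint (Q a) (Q b) := by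
    intro a b hab
    rw [Set.disjoint_left]
    rintro v ⟨i, h1, h2⟩ ⟨j, h3, h4⟩
    by_cases hij : i = j
    · subst hij
      exact h2 b hab.symm h3
    · exact hcr i j a b v hij hab h1 h3
  have dXX : ∀ i j, i ≠ j → Disjoint (X i) (X j) := by
    intro i j hij
    rw [Set.disjoint_left]
    rintro v ⟨a, b, hab, h1, h2⟩ ⟨c, c', _, h3, _⟩
    rcases other2 a b c hab with h | h
    · exact hcr i j a c v hij h h1 h3
    · exact hcr i j b c v hij h h2 h3
  have dQX : ∀ a i, Disjoint (Q a) (X i) := by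
    intro a i
    rw [Set.disjoint_left]
    rintro v ⟨j, h1, h2⟩ ⟨b, c, hbc, h3, h4⟩
    by_cases hij : i = j
    · subst hij
      rcases other2 b c a hbc with h | h
      · exact h2 b h h3
      · exact h2 c h h4
    · rcases other2 b c a hbc with h | h
      · exact hcr i j b a v hij h h3 h1
      · exact hcr i j c a v hij h h4 h1
  have adj : ∀ a i, ∃ u ∈ Q a, ∃ w ∈ X i, G.Adj u w := by
    intro a i
    have hfin : Set.Finite {v | v ∈ X i ∧ v ∈ I (x i) (R a)} := Set.toFinite _
    obtain ⟨v, hv, hmin⟩ := Set.exists_min_image _ (fun v => d v (R a)) hfin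
      ⟨x i, hX0 i, self1 _ _⟩
    have hne : v ≠ R a := by
      intro h
      obtain ⟨b, c, hbc, h3, h4⟩ := hv.1
      rw [h] at h3 h4
      rcases other2 b c a hbc with h' | h'
      · exact hr i a b h'.symm h3
      · exact hr i a c h'.symm h4
    obtain ⟨w, ha, hw⟩ := H558.step hd hG (x := R a) hne
    have hw' : w ∈ I v (R a) := hw
    obtain ⟨h3, h4⟩ := rule1 hv.2 hw'
    have hpos := hd.pos v w ha.ne
    refine ⟨w, ⟨i, h3, fun b hb hwb => ?_⟩, v, hv.1, ha.symm⟩
    have h5 : d v (R a) ≤ d w (R a) := hmin w ⟨⟨b, a, hb, hwb, h3⟩, h3⟩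
    linarith
  refine ⟨Sum.elim Q X, ?_, ?_, ?_⟩
  · rintro (a | i)
    · exact hQ a
    · exact hX i
  · rintro (a | i) (b | j) h
    · exact dQQ a b fun e => h (by rw [e])
    · exact dQX a j
    · exact (dQX b i).symm
    · exact dXX i j fun e => h (by rw [e])
  · rintro (a | i) (b | j) h
    · simp at h
    · exact adj a j
    · obtain ⟨u, hu, w, hw, e⟩ := adj b i
      exact ⟨w, hw, u, hu, e.symm⟩
    · simp at h

/-- **[X1] CLUSTER** -/
theorem cluster [Finite V] {G : SimpleGraph V} {d : V → V → ℝ} (hd : IsMet d) (hG : Gen G d)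
    (R : Fin 3 → V) (a : Fin 3 → ℝ) (ha0 : ∀ i, 0 ≤ a i)
    (ha : ∀ i j, i ≠ j → a i + a j ≤ d (R i) (R j)) {n : ℕ} (hn : 0 < n)
    (hno : ¬ IsMinor (completeBipartiteGraph (Fin 3) (Fin n)) G) :
    ∃ Z : Set V, Z.ncard < n ∧ ∀ x e, (∀ i, d x (R i) ≤ a i + e) →
      ∃ p, (p ∈ Z ∨ p ∈ Set.range R) ∧ d x p ≤ 2 * e := by
  classical
  obtain ⟨ex, he⟩ : ∃ ex : V → ℝ, ex = fun x => max (d x (R 0) - a 0)
      (max (d x (R 1) - a 1) (d x (R 2) - a 2)) := ⟨_, rfl⟩
  have fin3 : ∀ i : Fin 3, i = 0 ∨ i = 1 ∨ i = 2 := by decide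
  have he1 : ∀ x i, d x (R i) ≤ a i + ex x := by
    intro x i
    have h0 : d x (R 0) - a 0 ≤ ex x := by rw [he]; exact le_max_left _ _
    have h1 : d x (R 1) - a 1 ≤ ex x := by
      rw [he]; exact (le_max_left _ _).trans (le_max_right _ _)
    have h2 : d x (R 2) - a 2 ≤ ex x := by
      rw [he]; exact (le_max_right _ _).trans (le_max_right _ _)
    rcases fin3 i with rfl | rfl | rfl <;> linarith
  have he2 : ∀ x e, (∀ i, d x (R i) ≤ a i + e) → ex x ≤ e := by
    intro x e h
    rw [he]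
    exact max_le (by linarith [h 0]) (max_le (by linarith [h 1]) (by linarith [h 2]))
  have he0 : ∀ x, 0 ≤ ex x := by
    intro x
    have h1 := he1 x 0
    have h2 := he1 x 1
    have h3 := ha 0 1 (by decide)
    have h4 := hd.tri (R 0) x (R 1)
    have h5 := hd.symm (R 0) x
    linarith
  let Un : Set V → V → Prop := fun Z y =>
    (∀ p ∈ Z, 2 * ex y < d y p) ∧ ∀ i, 2 * ex y < d y (R i)
  let Good : Set V → Prop := fun Z =>
    (∀ x ∈ Z, ∀ y ∈ Z, x ≠ y → ex x + ex y < d x y) ∧ (∀ x ∈ Z, ∀ i, ex x < d x (R i)) ∧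
      ∀ y, Un Z y → ∀ x ∈ Z, ex x ≤ ex y
  have grow : ∀ m, (∃ Z : Set V, Good Z ∧ Z.ncard = m) ∨
      ∃ Z : Set V, (∀ y, ¬ Un Z y) ∧ Z.ncard < m := by
    intro m
    induction m with
    | zero =>
      left
      exact ⟨∅, ⟨fun x hx => absurd hx (Set.notMem_empty x),
        fun x hx => absurd hx (Set.notMem_empty x),
        fun y _ x hx => absurd hx (Set.notMem_empty x)⟩, Set.ncard_empty V⟩
    | succ m ih =>
      rcases ih with ⟨Z, ⟨h1, h2, h3⟩, hm⟩ | ⟨Z, h1, hm⟩
      · by_cases hc : ∀ y, ¬ Un Z y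
        · exact Or.inr ⟨Z, hc, by omega⟩
        · left
          push Not at hc
          obtain ⟨y, hy, hmin⟩ := Set.exists_min_image {y | Un Z y} ex (Set.toFinite _) hc
          have hyZ : y ∉ Z := by
            intro h
            have := hy.1 y h
            rw [hd.self] at this
            have := he0 y
            linarith
          refine ⟨insert y Z, ⟨?_, ?_, ?_⟩, ?_⟩
          · rintro u (rfl | hu) v (rfl | hv) huv
            · exact absurd rfl huv
            · have g1 := hy.1 v hv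
              have g2 := h3 u hy v hv
              linarith
            · have g1 := hy.1 u hu
              have g2 := h3 v hy u hu
              rw [hd.symm u v]
              linarith
            · exact h1 u hu v hv huv
          · rintro u (rfl | hu) i
            · have g1 := hy.2 i
              have g2 := he0 u
              linarith
            · exact h2 u hu i
          · rintro v ⟨hv, hv'⟩ u (rfl | hu)
            · exact hmin v ⟨fun p hp => hv p (Or.inr hp), hv'⟩
            · exact h3 v ⟨fun p hp => hv p (Or.inr hp), hv'⟩ u hu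
          · rw [Set.ncard_insert_of_notMem hyZ (Set.toFinite _), hm]
      · exact Or.inr ⟨Z, h1, by omega⟩
  rcases grow n with ⟨Z, ⟨h1, h2, _⟩, hm⟩ | ⟨Z, hcov, hm⟩
  · exfalso
    apply hno
    have hfin : Z.Finite := Set.toFinite Z
    have hcard : Nat.card Z = n := hm
    have : Finite Z := hfin
    let eq := (Finite.equivFin Z).trans (finCongr hcard)
    let x : Fin n → V := fun i => (eq.symm i : V)
    have hx : ∀ i, x i ∈ Z := fun i => (eq.symm i).2
    have hinj : ∀ i j, i ≠ j → x i ≠ x j := fun i j hij h =>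
      hij (eq.symm.injective (Subtype.ext h))
    refine k3n_of hd hG R hn x ?_ ?_
    · intro i j p q v hij hpq g1 g2
      have g3 := h1 _ (hx i) _ (hx j) (hinj i j hij)
      have g4 := he1 (x i) p
      have g5 := he1 (x j) q
      have g6 := ha p q hpq
      have g7 := hd.tri (x i) v (x j)
      have g8 := hd.symm v (x j)
      have g9 := hd.tri (R p) v (R q)
      have g10 := hd.symm (R p) v
      linarith
    · intro i p q hpq g1
      have g2 := h2 _ (hx i) p
      have g3 := he1 (x i) q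
      have g4 := ha p q hpq
      have g5 := ha0 p
      linarith
  · refine ⟨Z, hm, fun x e hxe => ?_⟩
    have g1 := he2 x e hxe
    have g2 := hcov x
    by_contra hno'
    push Not at hno'
    apply g2
    refine ⟨fun p hp => ?_, fun i => ?_⟩
    · have := hno' p (Or.inl hp)
      linarith
    · have := hno' (R i) (Or.inr ⟨i, rfl⟩)
      linarith

end Vale.Agent.P235.K5.GX.H624
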